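import Vale.Agent.P066.Bdl.B1

set_option autoImplicit false

namespace Vale.Agent.Results.P066.CliqueThree

open Vale.Agent.P066

/-- The Shareshian-Wachs conjecture for all natural unit interval graphs `G(h)` without four
pairwise adjacent vertices: there are `c p ∈ ℕ[q]`, one for each partition `p` of `n`, which are the
coefficients of the (unique) expansion of the chromatic quasisymmetric function of `G(h)` in
the elementary basis, simultaneously in any number `N` of variables. -/
theorem result {n : ℕ} (h : Fin n → Fin n) (hmono : Monotone h)
    (hclique : (unitIntervalGraph h).CliqueFree 4) :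
    ∃ c : n.Partition → Polynomial ℤ, (∀ p k, 0 ≤ (c p).coeff k) ∧
      ∀ c' : n.Partition → Polynomial ℤ,
        (∀ N, chromaticQSF (unitIntervalGraph h) N =
          ∑ p : n.Partition,
            MvPolynomial.C (c' p) * MvPolynomial.esymmPart (Fin N) (Polynomial ℤ) p) ↔ c' = c := by
  obtain ⟨c, hc, he⟩ := expansion_of_cliqueFree h hmono hclique
  refine ⟨c, hc, fun c' => ⟨fun h' => ?_, fun h' => ?_⟩⟩
  · exact expansion_unique le_rfl c' c ((h' n).symm.trans (he n))
  · rw [h']; exact he

end Vale.Agent.Results.P066.CliqueThree
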